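import Vale.Agent.Lib.P307.EmptyVocab

namespace Vale.Agent.Lib.P307

open FirstOrder Cardinal FirstOrder.Language

universe u v w

variable {L : FirstOrder.Language.{v, w}}

section transport

variable {X X' N : Type u} [L.Structure X] [L.Structure X'] [L.Structure N]

/-- Two embeddings into a common structure with the same range give an isomorphism. -/
noncomputable def equivOfEmbeddings (φ : X ↪[L] N) (φ' : X' ↪[L] N)
    (h : ∀ n : N, (∃ x, φ x = n) ↔ (∃ x', φ' x' = n)) : X ≃[L] X' where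
  toFun x := Classical.choose ((h (φ x)).1 ⟨x, rfl⟩)
  invFun x' := Classical.choose ((h (φ' x')).2 ⟨x', rfl⟩)
  left_inv x := by
    apply φ.injective
    rw [Classical.choose_spec ((h (φ' _)).2 ⟨_, rfl⟩),
      Classical.choose_spec ((h (φ x)).1 ⟨x, rfl⟩)]
  right_inv x' := by
    apply φ'.injective
    rw [Classical.choose_spec ((h (φ _)).1 ⟨_, rfl⟩),
      Classical.choose_spec ((h (φ' x')).2 ⟨x', rfl⟩)]
  map_fun' {n} f v := by
    apply φ'.injective
    rw [Classical.choose_spec ((h (φ _)).1 ⟨_, rfl⟩), φ.map_fun, φ'.map_fun]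
    congr 1
    ext i
    simp only [Function.comp_apply]
    rw [Classical.choose_spec ((h (φ (v i))).1 ⟨v i, rfl⟩)]
  map_rel' {n} R v := by
    rw [← φ'.map_rel, ← φ.map_rel]
    have : (φ' ∘ (fun x => Classical.choose ((h (φ x)).1 ⟨x, rfl⟩)) ∘ v) = φ ∘ v := by
      ext i
      simp only [Function.comp_apply]
      rw [Classical.choose_spec ((h (φ (v i))).1 ⟨v i, rfl⟩)]
    rw [this]

theorem equivOfEmbeddings_spec (φ : X ↪[L] N) (φ' : X' ↪[L] N)
    (h : ∀ n : N, (∃ x, φ x = n) ↔ (∃ x', φ' x' = n)) (x : X) :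
    φ' (equivOfEmbeddings φ φ' h x) = φ x :=
  Classical.choose_spec ((h (φ x)).1 ⟨x, rfl⟩)

/-- Transport of the strong substructure relation along two embeddings with the same range. -/
theorem AEC.le_transport (K : AEC.{u} L) (φ : X ↪[L] N) (φ' : X' ↪[L] N)
    (h : ∀ n : N, (∃ x, φ x = n) ↔ (∃ x', φ' x' = n))
    (S : L.Substructure X) (S' : L.Substructure X')
    (hS : ∀ x x', φ x = φ' x' → (x ∈ S ↔ x' ∈ S')) (hle : K.le X S) : K.le X' S' := by
  refine K.le_of_equiv (equivOfEmbeddings φ φ' h) S S' ?_ hle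
  intro x
  exact hS x _ (equivOfEmbeddings_spec φ φ' h x).symm

end transport

section ambient

variable (K : AEC.{u} L) {N : Type u} [L.Structure N]

/-- For substructures `A`, `B` of an ambient structure: `A ⊆ B` and `A` is a strong
substructure of `B`. -/
def AEC.Rel (A B : L.Substructure N) : Prop :=
  A ≤ B ∧ K.le B (A.comap B.subtype.toHom)

theorem comap_subtype_self (A : L.Substructure N) : A.comap A.subtype.toHom = ⊤ := by
  ext x
  simp only [Substructure.mem_comap, Substructure.mem_top, iff_true]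
  exact x.2

theorem AEC.rel_self_iff (A : L.Substructure N) : K.Rel A A ↔ K.le A ⊤ := by
  unfold AEC.Rel
  rw [comap_subtype_self]
  simp

theorem AEC.Rel.right_mem {K : AEC.{u} L} {A B : L.Substructure N} (h : K.Rel A B) :
    K.Rel B B :=
  (K.rel_self_iff B).2 (K.le_mem h.2).1

theorem AEC.Rel.left_mem {K : AEC.{u} L} {A B : L.Substructure N} (h : K.Rel A B) :
    K.Rel A A := by
  rw [K.rel_self_iff]
  have h1 := (K.le_mem h.2).2
  refine K.le_transport (B.subtype.comp (A.comap B.subtype.toHom).subtype) A.subtype ?_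
    ⊤ ⊤ (fun _ _ _ => by simp) h1
  intro n
  constructor
  · rintro ⟨x, rfl⟩
    exact ⟨⟨_, x.2⟩, rfl⟩
  · rintro ⟨x', rfl⟩
    exact ⟨⟨⟨x'.1, h.1 x'.2⟩, x'.2⟩, rfl⟩

theorem AEC.Rel.trans {K : AEC.{u} L} {A B C : L.Substructure N} (h1 : K.Rel A B)
    (h2 : K.Rel B C) : K.Rel A C := by
  refine ⟨_root_.le_trans h1.1 h2.1, ?_⟩
  set S := B.comap C.subtype.toHom with hS
  set T : L.Substructure S := (A.comap C.subtype.toHom).comap S.subtype.toHom with hT
  have h3 : K.le S T := by
    refine K.le_transport B.subtype (C.subtype.comp S.subtype) ?_ (A.comap B.subtype.toHom) T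
      ?_ h1.2
    · intro n
      constructor
      · rintro ⟨x, rfl⟩
        exact ⟨⟨⟨x.1, h2.1 x.2⟩, x.2⟩, rfl⟩
      · rintro ⟨x', rfl⟩
        exact ⟨⟨_, x'.2⟩, rfl⟩
    · intro x x' hxx'
      change (x : N) ∈ A ↔ ((x' : C) : N) ∈ A
      have : (x : N) = ((x' : C) : N) := hxx'
      rw [this]
  have h4 := K.le_trans h2.2 h3
  have h5 : T.map S.subtype.toHom = A.comap C.subtype.toHom := by
    ext y
    constructor
    · rintro ⟨x, hx, rfl⟩
      exact hx
    · intro hy
      exact ⟨⟨y, h1.1 hy⟩, hy, rfl⟩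
  rwa [h5] at h4

theorem AEC.Rel.coherence {K : AEC.{u} L} {A B C : L.Substructure N} (h1 : K.Rel A C)
    (h2 : K.Rel B C) (hAB : A ≤ B) : K.Rel A B := by
  refine ⟨hAB, ?_⟩
  set S := B.comap C.subtype.toHom with hS
  have h3 : A.comap C.subtype.toHom ≤ S := fun x hx => hAB hx
  have h4 := K.coherence h2.2 h1.2 h3
  refine K.le_transport (C.subtype.comp S.subtype) B.subtype ?_ _ (A.comap B.subtype.toHom)
    ?_ h4
  · intro n
    constructor
    · rintro ⟨x, rfl⟩
      exact ⟨⟨_, x.2⟩, rfl⟩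
    · rintro ⟨x', rfl⟩
      exact ⟨⟨⟨x'.1, h2.1 x'.2⟩, x'.2⟩, rfl⟩
  · intro x x' hxx'
    change ((x : C) : N) ∈ A ↔ (x' : N) ∈ A
    have : ((x : C) : N) = (x' : N) := hxx'
    rw [this]

theorem directed_of_wellOrder {ι : Type u} (r : ι → ι → Prop) [IsWellOrder ι r]
    (S : ι → L.Substructure N) (hmono : ∀ i j, r i j → S i ≤ S j) :
    Directed (fun x1 x2 => x1 ≤ x2) S := by
  intro i j
  rcases trichotomous_of r i j with h | h | h
  · exact ⟨j, hmono i j h, le_rfl⟩
  · subst h; exact ⟨i, le_rfl, le_rfl⟩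
  · exact ⟨i, le_rfl, hmono j i h⟩

theorem AEC.rel_iSup {ι : Type u} (r : ι → ι → Prop) [IsWellOrder ι r] [Nonempty ι]
    (S : ι → L.Substructure N) (hmem : ∀ i, K.Rel (S i) (S i))
    (hchain : ∀ i j, r i j → K.Rel (S i) (S j)) : ∀ i, K.Rel (S i) (⨆ j, S j) := by
  set V := ⨆ j, S j with hV
  have hdir := directed_of_wellOrder r S (fun i j hij => (hchain i j hij).1)
  have hleV : ∀ i, S i ≤ V := fun i => le_iSup S i
  have key : ∀ i j, S i ≤ S j → K.le (S j) ((S i).comap (S j).subtype.toHom) →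
      K.le ((S j).comap V.subtype.toHom)
        (((S i).comap V.subtype.toHom).comap ((S j).comap V.subtype.toHom).subtype.toHom) := by
    intro i j hij hle
    refine K.le_transport (S j).subtype
      (V.subtype.comp ((S j).comap V.subtype.toHom).subtype) ?_ _ _ ?_ hle
    · intro n
      constructor
      · rintro ⟨x, rfl⟩
        exact ⟨⟨⟨x.1, hleV j x.2⟩, x.2⟩, rfl⟩
      · rintro ⟨x', rfl⟩
        exact ⟨⟨_, x'.2⟩, rfl⟩
    · intro x x' hxx'
      change (x : N) ∈ S i ↔ ((x' : V) : N) ∈ S i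
      have : (x : N) = ((x' : V) : N) := hxx'
      rw [this]
  have h1 : ∀ i, K.le ((S i).comap V.subtype.toHom) ⊤ := by
    intro i
    have h := key i i le_rfl (hmem i).2
    have h2 : ((S i).comap V.subtype.toHom).comap ((S i).comap V.subtype.toHom).subtype.toHom
        = ⊤ := comap_subtype_self _
    rwa [h2] at h
  have h2 : ∀ i j, r i j → (S i).comap V.subtype.toHom ≤ (S j).comap V.subtype.toHom ∧
      K.le ((S j).comap V.subtype.toHom)
        (((S i).comap V.subtype.toHom).comap ((S j).comap V.subtype.toHom).subtype.toHom) := by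
    intro i j hij
    exact ⟨fun x hx => (hchain i j hij).1 hx, key i j (hchain i j hij).1 (hchain i j hij).2⟩
  have h3 : (⨆ i, (S i).comap V.subtype.toHom) = ⊤ := by
    rw [eq_top_iff]
    intro x _
    have hx : (x : N) ∈ ⨆ j, S j := x.2
    rw [Substructure.mem_iSup_of_directed hdir] at hx
    obtain ⟨i, hi⟩ := hx
    exact (le_iSup (fun i => (S i).comap V.subtype.toHom) i) hi
  intro i
  exact ⟨hleV i, K.chain_union r (fun i => (S i).comap V.subtype.toHom) h1 h2 h3 i⟩

theorem AEC.rel_iSup_left {ι : Type u} (r : ι → ι → Prop) [IsWellOrder ι r] [Nonempty ι]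
    (S : ι → L.Substructure N) (B : L.Substructure N) (hmono : ∀ i j, r i j → S i ≤ S j)
    (hrel : ∀ i, K.Rel (S i) B) : K.Rel (⨆ i, S i) B := by
  have hdir := directed_of_wellOrder r S hmono
  refine ⟨iSup_le fun i => (hrel i).1, ?_⟩
  have h1 := K.chain_smooth r (fun i => (S i).comap B.subtype.toHom)
    (fun i j hij x hx => hmono i j hij hx) (fun i => (hrel i).2)
  have h2 : (⨆ i, (S i).comap B.subtype.toHom) = (⨆ i, S i).comap B.subtype.toHom := by
    apply le_antisymm
    · exact iSup_le fun i x hx => (le_iSup S i) hx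
    · intro x hx
      have hx' : (x : N) ∈ ⨆ i, S i := hx
      rw [Substructure.mem_iSup_of_directed hdir] at hx'
      obtain ⟨i, hi⟩ := hx'
      exact (le_iSup (fun i => (S i).comap B.subtype.toHom) i) hi
  rwa [h2] at h1

theorem AEC.rel_exists_LS {B : L.Substructure N} (hB : K.Rel B B) (X : Set N)
    (hX : X ⊆ B) : ∃ S : L.Substructure N, K.Rel S B ∧ X ⊆ S ∧
      Cardinal.mk S ≤ Cardinal.mk X + K.LS := by
  obtain ⟨S', hS', hsub, hcard⟩ := K.exists_le_of_subset ((K.rel_self_iff B).1 hB)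
    ((Subtype.val : B → N) ⁻¹' X)
  refine ⟨S'.map B.subtype.toHom, ⟨?_, ?_⟩, ?_, ?_⟩
  · rintro y ⟨x, -, rfl⟩
    exact x.2
  · rw [Substructure.comap_map_eq_of_injective B.subtype.injective]
    exact hS'
  · intro x hx
    exact ⟨⟨x, hX hx⟩, hsub hx, rfl⟩
  · have h1 : Cardinal.mk (S'.map B.subtype.toHom) = Cardinal.mk S' := by
      have : ((S'.map B.subtype.toHom : L.Substructure N) : Set N)
          = (Subtype.val : B → N) '' (S' : Set B) := rfl
      change Cardinal.mk ((S'.map B.subtype.toHom : L.Substructure N) : Set N) = _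
      rw [this, Cardinal.mk_image_eq Subtype.val_injective]
      rfl
    have h2 : Cardinal.mk ((Subtype.val : B → N) ⁻¹' X) = Cardinal.mk X := by
      apply Cardinal.mk_preimage_of_injective_of_subset_range _ _ Subtype.val_injective
      intro x hx
      exact ⟨⟨x, hX hx⟩, rfl⟩
    rw [h1, ← h2]
    exact hcard

theorem AEC.Rel.of_equiv {K : AEC.{u} L} {N' : Type u} [L.Structure N']
    {A B : L.Substructure N} {A' B' : L.Substructure N'} (hAB : K.Rel A B) (hA'B' : A' ≤ B')
    (e : B ≃[L] B') (he : ∀ x : B, (x : N) ∈ A ↔ ((e x : B') : N') ∈ A') : K.Rel A' B' :=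
  ⟨hA'B', K.le_of_equiv e _ _ he hAB.2⟩

theorem AEC.mem_iff_rel_range {M : Type u} [L.Structure M] (φ : M ↪[L] N) :
    K.Mem M ↔ K.Rel φ.toHom.range φ.toHom.range := by
  rw [K.rel_self_iff]
  constructor
  · intro h
    exact K.le_of_equiv φ.equivRange ⊤ ⊤ (by simp) h
  · intro h
    exact K.le_of_equiv φ.equivRange.symm ⊤ ⊤ (by simp) h

end ambient

end Vale.Agent.Lib.P307
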