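import Mathlib

namespace Vale.Agent.Lib.P307

open FirstOrder Language Cardinal

universe u v w

/-- `IsLSBound L le c`: the infinite cardinal `c` is at least the size of the vocabulary and
every member `N` of the class has, around every subset `A`, a strong substructure of
cardinality at most `|A| + c`. -/
def IsLSBound (L : FirstOrder.Language.{v, w})
    (le : ∀ (N : Type u) [L.Structure N], L.Substructure N → Prop) (c : Cardinal.{u}) : Prop :=
  ℵ₀ ≤ c ∧ Cardinal.lift.{u} L.card ≤ Cardinal.lift.{max v w} c ∧
    ∀ (N : Type u) [L.Structure N], le N ⊤ → ∀ A : Set N,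
      ∃ S : L.Substructure N, le N S ∧ A ⊆ S ∧ Cardinal.mk S ≤ Cardinal.mk A + c

/-- An abstract elementary class in the vocabulary `L`, on the structures of universe `u`.
`le N S` says that the substructure `S` of `N` (with its induced structure) and `N` both
belong to the class and `S` is a strong substructure of `N`. A structure `N` belongs to the
class when `le N ⊤`. -/
structure AEC (L : FirstOrder.Language.{v, w}) where
  le : ∀ (N : Type u) [L.Structure N], L.Substructure N → Prop
  le_mem : ∀ {N : Type u} [L.Structure N] {S : L.Substructure N},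
    le N S → le N ⊤ ∧ le S ⊤
  le_iso : ∀ {N N' : Type u} [L.Structure N] [L.Structure N'] (e : N ≃[L] N')
    {S : L.Substructure N}, le N S → le N' (S.map e.toHom)
  le_trans : ∀ {N : Type u} [L.Structure N] {S : L.Substructure N} {T : L.Substructure S},
    le N S → le S T → le N (T.map S.subtype.toHom)
  coherence : ∀ {N : Type u} [L.Structure N] {S T : L.Substructure N},
    le N S → le N T → T ≤ S → le S (T.comap S.subtype.toHom)
  chain_union : ∀ {U ι : Type u} [L.Structure U] (r : ι → ι → Prop) [IsWellOrder ι r]
    [Nonempty ι] (S : ι → L.Substructure U),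
    (∀ i, le (S i) ⊤) →
    (∀ i j, r i j → S i ≤ S j ∧ le (S j) ((S i).comap (S j).subtype.toHom)) →
    (⨆ i, S i) = ⊤ → ∀ i, le U (S i)
  chain_smooth : ∀ {N ι : Type u} [L.Structure N] (r : ι → ι → Prop) [IsWellOrder ι r]
    [Nonempty ι] (S : ι → L.Substructure N),
    (∀ i j, r i j → S i ≤ S j) → (∀ i, le N (S i)) → le N (⨆ i, S i)
  exists_LS : ∃ c : Cardinal.{u}, IsLSBound L le c

variable {L : FirstOrder.Language.{v, w}}

/-- Membership of a structure in the class. -/
def AEC.Mem (K : AEC.{u} L) (N : Type u) [L.Structure N] : Prop := K.le N ⊤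

/-- The Loewenheim-Skolem number: the least Loewenheim-Skolem bound. -/
noncomputable def AEC.LS (K : AEC.{u} L) : Cardinal.{u} := sInf {c | IsLSBound L K.le c}

/-- Categoricity in `κ`: there is a member of cardinality `κ`, and any two members of
cardinality `κ` are isomorphic. -/
def AEC.Categorical (K : AEC.{u} L) (κ : Cardinal.{u}) : Prop :=
  (∃ (M : Type u) (_ : L.Structure M), K.Mem M ∧ Cardinal.mk M = κ) ∧
    ∀ (M N : Type u) [L.Structure M] [L.Structure N], K.Mem M → K.Mem N →
      Cardinal.mk M = κ → Cardinal.mk N = κ → Nonempty (M ≃[L] N)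

end Vale.Agent.Lib.P307
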