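import Vale.Agent.Lib.P307.Defs

namespace Vale.Agent.Lib.P307

open FirstOrder Cardinal

universe u v w

section general

variable {L : FirstOrder.Language.{v, w}}

theorem AEC.le_of_equiv (K : AEC.{u} L) {N N' : Type u} [L.Structure N] [L.Structure N']
    (e : N ≃[L] N') (S : L.Substructure N) (S' : L.Substructure N')
    (h : ∀ x, x ∈ S ↔ e x ∈ S') (hS : K.le N S) : K.le N' S' := by
  have h1 := K.le_iso e hS
  have h2 : S.map e.toHom = S' := by
    ext y
    constructor
    · rintro ⟨x, hx, rfl⟩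
      exact (h x).1 hx
    · intro hy
      refine ⟨e.symm y, ?_, ?_⟩
      · apply (h _).2
        simpa using hy
      · simp
  rwa [h2] at h1

theorem AEC.LS_isLSBound (K : AEC.{u} L) : IsLSBound L K.le K.LS :=
  csInf_mem K.exists_LS

theorem AEC.aleph0_le_LS (K : AEC.{u} L) : ℵ₀ ≤ K.LS := K.LS_isLSBound.1

theorem AEC.exists_le_of_subset (K : AEC.{u} L) {N : Type u} [L.Structure N] (hN : K.Mem N)
    (A : Set N) : ∃ S : L.Substructure N, K.le N S ∧ A ⊆ S ∧
      Cardinal.mk S ≤ Cardinal.mk A + K.LS :=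
  K.LS_isLSBound.2.2 N hN A

end general

section emptyVocab

variable {N : Type u} [FirstOrder.Language.empty.Structure N]

/-- In the empty vocabulary every subset is a substructure. -/
def sub (s : Set N) : FirstOrder.Language.empty.Substructure N where
  carrier := s
  fun_mem := fun f => Empty.elim f

@[simp] theorem mem_sub {s : Set N} {x : N} : x ∈ sub s ↔ x ∈ s := Iff.rfl

theorem sub_coe (S : FirstOrder.Language.empty.Substructure N) : sub (S : Set N) = S := by
  ext x
  rfl

theorem sub_univ : sub (Set.univ : Set N) = ⊤ := by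
  ext x
  simp

theorem mk_sub (s : Set N) : Cardinal.mk (sub s) = Cardinal.mk s := rfl

theorem le_of_card_eq (K : AEC.{u} FirstOrder.Language.empty) (s s' : Set N)
    (h1 : Cardinal.mk s = Cardinal.mk s')
    (h2 : Cardinal.mk (sᶜ : Set N) = Cardinal.mk (s'ᶜ : Set N))
    (hs : K.le N (sub s)) : K.le N (sub s') := by
  classical
  obtain ⟨e1⟩ := Cardinal.eq.1 h1
  obtain ⟨e2⟩ := Cardinal.eq.1 h2
  let e : N ≃ N := (Equiv.Set.sumCompl s).symm.trans
    ((Equiv.sumCongr e1 e2).trans (Equiv.Set.sumCompl s'))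
  let e' : N ≃[FirstOrder.Language.empty] N := { toEquiv := e }
  refine K.le_of_equiv e' (sub s) (sub s') ?_ hs
  intro x
  change x ∈ s ↔ e x ∈ s'
  by_cases hx : x ∈ s
  · have : e x = (e1 ⟨x, hx⟩ : N) := by
      simp [e, Equiv.Set.sumCompl_symm_apply_of_mem hx]
    rw [this]
    simp [hx]
  · have hx' : x ∈ sᶜ := hx
    have : e x = (e2 ⟨x, hx'⟩ : N) := by
      simp [e, Equiv.Set.sumCompl_symm_apply_of_notMem hx]
    rw [this]
    have h3 : (e2 ⟨x, hx'⟩ : N) ∈ s'ᶜ := (e2 ⟨x, hx'⟩).2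
    simp only [hx, false_iff]
    exact h3

theorem le_of_card_lt (K : AEC.{u} FirstOrder.Language.empty) (hN : K.Mem N) (s : Set N)
    (h1 : K.LS ≤ Cardinal.mk s) (h2 : Cardinal.mk s < Cardinal.mk N) : K.le N (sub s) := by
  obtain ⟨S, hS, hsS, hcard⟩ := K.exists_le_of_subset hN s
  have hinf : ℵ₀ ≤ Cardinal.mk s := le_trans K.aleph0_le_LS h1
  have h3 : Cardinal.mk (S : Set N) = Cardinal.mk s := by
    apply le_antisymm
    · calc Cardinal.mk (S : Set N) ≤ Cardinal.mk s + K.LS := hcard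
        _ = Cardinal.mk s := Cardinal.add_eq_left hinf h1
    · exact Cardinal.mk_le_mk_of_subset hsS
  have : Infinite N := Cardinal.infinite_iff.2 (le_trans hinf h2.le)
  have h4 : Cardinal.mk ((S : Set N)ᶜ : Set N) = Cardinal.mk (sᶜ : Set N) := by
    rw [Cardinal.mk_compl_of_infinite _ h2, Cardinal.mk_compl_of_infinite]
    rw [h3]; exact h2
  have h5 : K.le N (sub (S : Set N)) := by rw [sub_coe]; exact hS
  exact le_of_card_eq K _ _ h3 h4 h5

theorem card_below_lt {ι : Type u} (r : ι → ι → Prop) [IsWellOrder ι r]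
    (hr : (Cardinal.mk ι).ord = Ordinal.type r) (hinf : ℵ₀ ≤ Cardinal.mk ι) (i : ι) :
    Cardinal.mk {j : ι | r j i ∨ j = i} < Cardinal.mk ι := by
  have h1 : Cardinal.mk {j : ι | r j i} < Cardinal.mk ι := by
    have := Cardinal.card_typein_lt (r := r) i hr
    rwa [Ordinal.card_typein] at this
  have h2 : {j : ι | r j i ∨ j = i} = {j : ι | r j i} ∪ {i} := by
    ext j; simp [or_comm]
  rw [h2]
  refine lt_of_le_of_lt (Cardinal.mk_union_le _ _) ?_
  refine Cardinal.add_lt_of_lt hinf h1 ?_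
  rw [Cardinal.mk_singleton]
  exact lt_of_lt_of_le Cardinal.one_lt_aleph0 hinf

theorem directed_of_chain {ι : Type u} (r : ι → ι → Prop) [IsWellOrder ι r]
    (S : ι → FirstOrder.Language.empty.Substructure N) (hmono : ∀ i j, r i j → S i ≤ S j) :
    Directed (fun x1 x2 => x1 ≤ x2) S := by
  intro i j
  rcases trichotomous_of r i j with h | h | h
  · exact ⟨j, hmono i j h, le_rfl⟩
  · subst h; exact ⟨i, le_rfl, le_rfl⟩
  · exact ⟨i, le_rfl, hmono j i h⟩

theorem le_of_card_eq_top (K : AEC.{u} FirstOrder.Language.empty)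
    (hl : K.LS < Cardinal.mk N)
    (hsmall : ∀ s : Set N, K.LS ≤ Cardinal.mk s → Cardinal.mk s < Cardinal.mk N →
      K.le N (sub s))
    (s : Set N) (hs : Cardinal.mk s = Cardinal.mk N) : K.le N (sub s) := by
  obtain ⟨r, wo, hr⟩ := Cardinal.exists_ord_eq ↥s
  obtain ⟨s0, hs0s, hs0⟩ : ∃ p ⊆ s, Cardinal.mk p = K.LS :=
    Cardinal.le_mk_iff_exists_subset.1 (hs ▸ hl.le)
  have hinf : ℵ₀ ≤ Cardinal.mk ↥s := by
    rw [hs]; exact le_trans K.aleph0_le_LS hl.le
  let t : ↥s → Set N := fun i => s0 ∪ Subtype.val '' {j : ↥s | r j i ∨ j = i}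
  have ht1 : ∀ i, Cardinal.mk (t i) < Cardinal.mk N := by
    intro i
    refine lt_of_le_of_lt (Cardinal.mk_union_le _ _) ?_
    refine Cardinal.add_lt_of_lt (hs ▸ hinf) (hs0 ▸ hl) ?_
    refine lt_of_le_of_lt Cardinal.mk_image_le ?_
    rw [← hs]
    exact card_below_lt r hr hinf i
  have ht2 : ∀ i, K.LS ≤ Cardinal.mk (t i) := by
    intro i
    rw [← hs0]
    exact Cardinal.mk_le_mk_of_subset Set.subset_union_left
  have hle : ∀ i, K.le N (sub (t i)) := fun i => hsmall _ (ht2 i) (ht1 i)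
  have hmono : ∀ i j, r i j → sub (t i) ≤ sub (t j) := by
    intro i j hij x hx
    rcases hx with hx | ⟨k, hk, rfl⟩
    · exact Or.inl hx
    · refine Or.inr ⟨k, ?_, rfl⟩
      rcases hk with hk | hk
      · exact Or.inl (_root_.trans hk hij)
      · exact Or.inl (hk ▸ hij)
  have : Nonempty ↥s := by
    rw [← Cardinal.mk_ne_zero_iff]
    intro h0
    rw [h0] at hinf
    exact absurd hinf (not_le.2 Cardinal.aleph0_pos)
  have h1 := K.chain_smooth r (fun i => sub (t i)) hmono hle
  have heq : (⨆ i, sub (t i)) = sub s := by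
    ext x
    rw [FirstOrder.Language.Substructure.mem_iSup_of_directed (directed_of_chain r _ hmono)]
    constructor
    · rintro ⟨i, hx | ⟨k, _, rfl⟩⟩
      · exact hs0s hx
      · exact k.2
    · intro hx
      exact ⟨⟨x, hx⟩, Or.inr ⟨⟨x, hx⟩, Or.inr rfl, rfl⟩⟩
  rwa [heq] at h1

theorem le_of_card_lt_of_IH (K : AEC.{u} FirstOrder.Language.empty)
    (hl : K.LS < Cardinal.mk N)
    (IH : ∀ (M' : Type u) [FirstOrder.Language.empty.Structure M'],
      Cardinal.mk M' < Cardinal.mk N → ∀ s : Set M', K.LS ≤ Cardinal.mk s → K.le M' (sub s))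
    (s : Set N) (h1 : K.LS ≤ Cardinal.mk s) (h2 : Cardinal.mk s < Cardinal.mk N) :
    K.le N (sub s) := by
  obtain ⟨r, wo, hr⟩ := Cardinal.exists_ord_eq N
  have hinf : ℵ₀ ≤ Cardinal.mk N := le_trans K.aleph0_le_LS hl.le
  let t : N → Set N := fun i => s ∪ {j : N | r j i ∨ j = i}
  have ht1 : ∀ i, Cardinal.mk (t i) < Cardinal.mk N := by
    intro i
    refine lt_of_le_of_lt (Cardinal.mk_union_le _ _) ?_
    exact Cardinal.add_lt_of_lt hinf h2 (card_below_lt r hr hinf i)
  have ht2 : ∀ i, K.LS ≤ Cardinal.mk (t i) := by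
    intro i
    exact le_trans h1 (Cardinal.mk_le_mk_of_subset Set.subset_union_left)
  have hmono : ∀ i j, r i j → sub (t i) ≤ sub (t j) := by
    intro i j hij x hx
    rcases hx with hx | hx
    · exact Or.inl hx
    · refine Or.inr ?_
      rcases hx with hk | hk
      · exact Or.inl (_root_.trans hk hij)
      · exact Or.inl (hk ▸ hij)
  have key : ∀ (i : N) (a : Set N), a ⊆ t i → K.LS ≤ Cardinal.mk a →
      K.le (sub (t i)) ((sub a).comap (sub (t i)).subtype.toHom) := by
    intro i a hai ha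
    have h3 : (sub a).comap (sub (t i)).subtype.toHom
        = sub ((Subtype.val : ↥(sub (t i)) → N) ⁻¹' a) := by
      ext x
      rfl
    rw [h3]
    refine IH ↥(sub (t i)) (ht1 i) _ ?_
    rw [Cardinal.mk_preimage_of_injective_of_subset_range _ _ Subtype.val_injective]
    · exact ha
    · intro x hx
      exact ⟨⟨x, hai hx⟩, rfl⟩
  have hmem : ∀ i, K.le (sub (t i)) ⊤ := by
    intro i
    have := IH ↥(sub (t i)) (ht1 i) Set.univ (by rw [Cardinal.mk_univ]; exact ht2 i)
    rwa [sub_univ] at this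
  have hchain : ∀ i j, r i j → sub (t i) ≤ sub (t j) ∧
      K.le (sub (t j)) ((sub (t i)).comap (sub (t j)).subtype.toHom) := by
    intro i j hij
    exact ⟨hmono i j hij, key j (t i) (hmono i j hij) (ht2 i)⟩
  have : Nonempty N := by
    rw [← Cardinal.mk_ne_zero_iff]
    intro h0
    rw [h0] at hinf
    exact absurd hinf (not_le.2 Cardinal.aleph0_pos)
  have htop : (⨆ i, sub (t i)) = ⊤ := by
    ext x
    rw [FirstOrder.Language.Substructure.mem_iSup_of_directed (directed_of_chain r _ hmono)]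
    simp only [FirstOrder.Language.Substructure.mem_top, iff_true]
    exact ⟨x, Or.inr (Or.inr rfl)⟩
  have hU := K.chain_union r (fun i => sub (t i)) hmem hchain htop
  obtain ⟨i0⟩ := ‹Nonempty N›
  have h4 := K.le_trans (hU i0) (key i0 s Set.subset_union_left h1)
  have h5 : ((sub s).comap (sub (t i0)).subtype.toHom).map (sub (t i0)).subtype.toHom
      = sub s := by
    ext y
    constructor
    · rintro ⟨x, hx, rfl⟩
      exact hx
    · intro hy
      exact ⟨⟨y, Or.inl hy⟩, hy, rfl⟩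
  rwa [h5] at h4

end emptyVocab

theorem le_of_model (K : AEC.{u} FirstOrder.Language.empty) {M0 : Type u}
    [FirstOrder.Language.empty.Structure M0] (hM0 : K.Mem M0)
    (hl : K.LS < Cardinal.mk M0) :
    ∀ (c : Cardinal.{u}) (M : Type u) [FirstOrder.Language.empty.Structure M],
      Cardinal.mk M = c → ∀ s : Set M, K.LS ≤ Cardinal.mk s → K.le M (sub s) := by
  intro c
  refine Cardinal.lt_wf.induction (C := fun c => ∀ (M : Type u)
    [FirstOrder.Language.empty.Structure M], Cardinal.mk M = c → ∀ s : Set M,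
    K.LS ≤ Cardinal.mk s → K.le M (sub s)) c ?_
  intro c IH M _ hM s hs
  have hsM : Cardinal.mk s ≤ Cardinal.mk M := Cardinal.mk_set_le s
  rcases lt_or_ge c (Cardinal.mk M0) with hlt | hge
  · obtain ⟨j⟩ : Nonempty (M ↪ M0) := (Cardinal.le_def _ _).1 (hM ▸ hlt.le)
    have hB : K.le M0 (sub (Set.range j)) := by
      refine le_of_card_lt K hM0 _ ?_ ?_
      · rw [Cardinal.mk_range_eq j j.injective]; exact le_trans hs hsM
      · rw [Cardinal.mk_range_eq j j.injective, hM]; exact hlt
    have hA : K.le M0 (sub (j '' s)) := by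
      refine le_of_card_lt K hM0 _ ?_ ?_
      · rw [Cardinal.mk_image_eq j.injective]; exact hs
      · rw [Cardinal.mk_image_eq j.injective]; exact lt_of_le_of_lt hsM (hM ▸ hlt)
    have hsub : sub (j '' s) ≤ sub (Set.range j) := by
      rintro x ⟨y, -, rfl⟩
      exact ⟨y, rfl⟩
    have hcoh := K.coherence hB hA hsub
    let e0 : M ≃ ↥(sub (Set.range j)) := Equiv.ofInjective j j.injective
    let e' : ↥(sub (Set.range j)) ≃[FirstOrder.Language.empty] M := { toEquiv := e0.symm }
    refine K.le_of_equiv e' _ (sub s) ?_ hcoh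
    intro x
    change (x : M0) ∈ j '' s ↔ e0.symm x ∈ s
    have hx : (x : M0) = j (e0.symm x) := by
      have h1 : e0 (e0.symm x) = x := e0.apply_symm_apply x
      have h2 : ((e0 (e0.symm x) : ↥(sub (Set.range j))) : M0) = j (e0.symm x) := rfl
      rw [← h2, h1]
    rw [hx]
    exact j.injective.mem_set_image
  · have hl' : K.LS < Cardinal.mk M := by rw [hM]; exact lt_of_lt_of_le hl hge
    have hMem : ∀ s' : Set M, K.LS ≤ Cardinal.mk s' → Cardinal.mk s' < Cardinal.mk M →
        K.le M (sub s') := by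
      rcases eq_or_lt_of_le hge with heq | hgt
      · obtain ⟨e⟩ := Cardinal.eq.1 (show Cardinal.mk M0 = Cardinal.mk M by rw [hM, heq])
        have hMM : K.Mem M :=
          K.le_of_equiv (N := M0) (N' := M) { toEquiv := e } ⊤ ⊤ (by simp) hM0
        exact fun s' h1 h2 => le_of_card_lt K hMM s' h1 h2
      · have IH' : ∀ (M' : Type u) [FirstOrder.Language.empty.Structure M'],
            Cardinal.mk M' < Cardinal.mk M → ∀ s' : Set M', K.LS ≤ Cardinal.mk s' →
            K.le M' (sub s') :=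
          fun M' _ hM' s' hs' => IH (Cardinal.mk M') (hM ▸ hM') M' rfl s' hs'
        exact fun s' h1 h2 => le_of_card_lt_of_IH K hl' IH' s' h1 h2
    rcases lt_or_eq_of_le hsM with h | h
    · exact hMem s hs h
    · exact le_of_card_eq_top K hl' hMem s h

theorem eventual_categoricity_empty (K : AEC.{u} FirstOrder.Language.empty)
    (lam : Cardinal.{u}) (hLS : K.LS ≤ lam) (κ κ' : Cardinal.{u})
    (hκ : Order.succ lam ≤ κ) (hκ' : Order.succ lam ≤ κ') (hcat : K.Categorical κ) :
    K.Categorical κ' := by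
  obtain ⟨⟨M0, inst0, hM0, hcard0⟩, -⟩ := hcat
  have hl : K.LS < Cardinal.mk M0 := by
    rw [hcard0]
    exact lt_of_le_of_lt hLS (lt_of_lt_of_le (Order.lt_succ lam) hκ)
  have hl' : K.LS ≤ κ' := le_trans hLS (le_trans (Order.le_succ lam) hκ')
  refine ⟨⟨Quotient.out κ', FirstOrder.Language.emptyStructure, ?_, Cardinal.mk_out κ'⟩, ?_⟩
  · let _ : FirstOrder.Language.empty.Structure (Quotient.out κ') :=
      FirstOrder.Language.emptyStructure
    have h := le_of_model K hM0 hl κ' (Quotient.out κ') (Cardinal.mk_out κ') Set.univ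
      (by rw [Cardinal.mk_univ, Cardinal.mk_out]; exact hl')
    rw [sub_univ] at h
    exact h
  · intro M N _ _ _ _ hM hN
    obtain ⟨e⟩ := Cardinal.eq.1 (hM.trans hN.symm)
    exact ⟨{ toEquiv := e }⟩

end Vale.Agent.Lib.P307
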