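import Vale.Agent.Lib.P307.Ambient

namespace Vale.Agent.Lib.P307

open FirstOrder Cardinal FirstOrder.Language

universe u v w

variable {L : FirstOrder.Language.{v, w}}

section resolution

variable (K : AEC.{u} L) {N : Type u} [L.Structure N]

/-- A strong substructure of `S` of small size around `X ∩ S`. -/
noncomputable def AEC.lsClosure {S : L.Substructure N} (hS : K.Rel S S) (X : Set N) :
    L.Substructure N :=
  Classical.choose (K.rel_exists_LS hS (X ∩ S) Set.inter_subset_right)

theorem AEC.lsClosure_rel {S : L.Substructure N} (hS : K.Rel S S) (X : Set N) :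
    K.Rel (K.lsClosure hS X) S :=
  (Classical.choose_spec (K.rel_exists_LS hS (X ∩ S) Set.inter_subset_right)).1

theorem AEC.subset_lsClosure {S : L.Substructure N} (hS : K.Rel S S) (X : Set N) :
    X ∩ S ⊆ K.lsClosure hS X :=
  (Classical.choose_spec (K.rel_exists_LS hS (X ∩ S) Set.inter_subset_right)).2.1

theorem AEC.card_lsClosure_le {S : L.Substructure N} (hS : K.Rel S S) (X : Set N) :
    Cardinal.mk (K.lsClosure hS X) ≤ Cardinal.mk X + K.LS := by
  refine _root_.le_trans
    (Classical.choose_spec (K.rel_exists_LS hS (X ∩ S) Set.inter_subset_right)).2.2 ?_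
  exact add_le_add (Cardinal.mk_le_mk_of_subset Set.inter_subset_left) le_rfl

/-- The resolution chain of `S` along a well-order `r` of its elements. -/
noncomputable def AEC.resol {S : L.Substructure N} (hS : K.Rel S S) (r : S → S → Prop)
    [IsWellOrder S r] : S → L.Substructure N :=
  IsWellFounded.fix r (fun x ih =>
    K.lsClosure hS ((⋃ y : {y // r y x}, (ih y.1 y.2 : Set N)) ∪ {(x : N)}))

theorem AEC.resol_eq {S : L.Substructure N} (hS : K.Rel S S) (r : S → S → Prop)
    [IsWellOrder S r] (x : S) :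
    K.resol hS r x = K.lsClosure hS
      ((⋃ y : {y // r y x}, (K.resol hS r y.1 : Set N)) ∪ {(x : N)}) :=
  IsWellFounded.fix_eq r _ x

theorem AEC.resol_rel {S : L.Substructure N} (hS : K.Rel S S) (r : S → S → Prop)
    [IsWellOrder S r] (x : S) : K.Rel (K.resol hS r x) S := by
  rw [K.resol_eq]
  exact K.lsClosure_rel hS _

theorem AEC.mem_resol {S : L.Substructure N} (hS : K.Rel S S) (r : S → S → Prop)
    [IsWellOrder S r] (x : S) : (x : N) ∈ K.resol hS r x := by
  rw [K.resol_eq]
  apply K.subset_lsClosure hS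
  exact ⟨Or.inr rfl, x.2⟩

theorem AEC.resol_mono {S : L.Substructure N} (hS : K.Rel S S) (r : S → S → Prop)
    [IsWellOrder S r] (y x : S) (h : r y x) : K.resol hS r y ≤ K.resol hS r x := by
  intro z hz
  rw [K.resol_eq hS r x]
  apply K.subset_lsClosure hS
  refine ⟨Or.inl ?_, (K.resol_rel hS r y).1 hz⟩
  exact Set.mem_iUnion.2 ⟨⟨y, h⟩, hz⟩

theorem AEC.card_resol_le {S : L.Substructure N} (hS : K.Rel S S) (r : S → S → Prop)
    [IsWellOrder S r] (x : S) :
    Cardinal.mk (K.resol hS r x) ≤ Cardinal.mk {y // r y x} + K.LS := by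
  induction x using (IsWellFounded.wf (r := r)).induction with
  | _ x ih =>
    set p := Cardinal.mk {y // r y x} with hp
    have hinf : ℵ₀ ≤ p + K.LS := _root_.le_trans K.aleph0_le_LS (self_le_add_left _ _)
    rw [K.resol_eq hS r x]
    refine _root_.le_trans (K.card_lsClosure_le hS _) ?_
    have h1 : Cardinal.mk (⋃ y : {y // r y x}, (K.resol hS r y.1 : Set N)) ≤ p * (p + K.LS) := by
      refine _root_.le_trans (Cardinal.mk_iUnion_le _) ?_
      refine mul_le_mul' le_rfl (ciSup_le' fun y => ?_)
      refine _root_.le_trans (ih y.1 y.2) (add_le_add ?_ le_rfl)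
      exact Cardinal.mk_subtype_mono fun z hz => _root_.trans hz y.2
    have h2 : p * (p + K.LS) ≤ p + K.LS := by
      calc p * (p + K.LS) ≤ (p + K.LS) * (p + K.LS) :=
            mul_le_mul' (self_le_add_right _ _) le_rfl
        _ = p + K.LS := Cardinal.mul_eq_self hinf
    have h3 : Cardinal.mk ((⋃ y : {y // r y x}, (K.resol hS r y.1 : Set N)) ∪ {(x : N)} : Set N)
        ≤ p + K.LS := by
      refine _root_.le_trans (Cardinal.mk_union_le _ _) ?_
      rw [Cardinal.mk_singleton]
      calc _ ≤ (p + K.LS) + (p + K.LS) :=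
            add_le_add (_root_.le_trans h1 h2) (_root_.le_trans Cardinal.one_le_aleph0 hinf)
        _ = p + K.LS := Cardinal.add_eq_self hinf
    calc _ ≤ (p + K.LS) + (p + K.LS) := add_le_add h3 (self_le_add_left _ _)
      _ = p + K.LS := Cardinal.add_eq_self hinf

theorem AEC.exists_resolution {S : L.Substructure N} (hS : K.Rel S S)
    (hl : K.LS < Cardinal.mk S) :
    ∃ (r : S → S → Prop) (_ : IsWellOrder S r) (F : S → L.Substructure N),
      Nonempty S ∧ (∀ i j, r i j → F i ≤ F j) ∧ (∀ i, K.Rel (F i) S) ∧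
      (∀ i, Cardinal.mk (F i) < Cardinal.mk S) ∧ (⨆ i, F i) = S := by
  obtain ⟨r, wo, hr⟩ := Cardinal.exists_ord_eq S
  have hinf : ℵ₀ ≤ Cardinal.mk S := _root_.le_trans K.aleph0_le_LS hl.le
  have hne : Nonempty S := by
    rw [← Cardinal.mk_ne_zero_iff]
    intro h0
    rw [h0] at hinf
    exact absurd hinf (not_le.2 Cardinal.aleph0_pos)
  refine ⟨r, wo, K.resol hS r, hne, fun i j hij => K.resol_mono hS r i j hij,
    fun i => K.resol_rel hS r i, ?_, ?_⟩
  · intro i
    refine lt_of_le_of_lt (K.card_resol_le hS r i) ?_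
    refine Cardinal.add_lt_of_lt hinf ?_ hl
    have := Cardinal.card_typein_lt (r := r) i hr
    rwa [Ordinal.card_typein] at this
  · apply le_antisymm
    · exact iSup_le fun i => (K.resol_rel hS r i).1
    · intro y hy
      exact (le_iSup (K.resol hS r) ⟨y, hy⟩) (K.mem_resol hS r ⟨y, hy⟩)

end resolution

end Vale.Agent.Lib.P307
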