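import Vale.Agent.Lib.P307.Resolution

set_option linter.unusedSectionVars false

namespace Vale.Agent.Lib.P307

open FirstOrder Cardinal FirstOrder.Language

universe u v w

variable {L : FirstOrder.Language.{v, w}}

section colours

/-- The colour of an element: the set of unary relation symbols that hold at it. -/
def col (L : FirstOrder.Language.{v, w}) {N : Type u} [L.Structure N] (x : N) :
    Set (L.Relations 1) :=
  {R | Structure.RelMap R ![x]}

theorem col_coe {N : Type u} [L.Structure N] (S : L.Substructure N) (x : S) :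
    col L (x : S) = col L (x : N) := by
  ext R
  change Structure.RelMap R (fun i => ((![x] i : S) : N)) ↔ Structure.RelMap R ![(x : N)]
  have : (fun i => ((![x] i : S) : N)) = ![(x : N)] := by
    ext i
    fin_cases i
    rfl
  rw [this]

variable [L.IsRelational]

/-- In a relational vocabulary every subset is a substructure. -/
def usub {N : Type u} [L.Structure N] (s : Set N) : L.Substructure N where
  carrier := s
  fun_mem := fun f => isEmptyElim f

@[simp] theorem mem_usub {N : Type u} [L.Structure N] {s : Set N} {x : N} :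
    x ∈ (usub s : L.Substructure N) ↔ x ∈ s := Iff.rfl

theorem usub_coe {N : Type u} [L.Structure N] (S : L.Substructure N) :
    usub (S : Set N) = S := by
  ext x
  rfl

theorem usub_le {N : Type u} [L.Structure N] {s t : Set N} :
    (usub s : L.Substructure N) ≤ usub t ↔ s ⊆ t := Iff.rfl

/-- A colour-preserving bijection is an isomorphism, when all relation symbols are unary. -/
def equivOfCol (hR : ∀ n, n ≠ 1 → IsEmpty (L.Relations n)) {M M' : Type u} [L.Structure M]
    [L.Structure M'] (e : M ≃ M') (he : ∀ x, col L (e x) = col L x) :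
    M ≃[L] M' where
  toEquiv := e
  map_fun' := fun f => isEmptyElim f
  map_rel' := by
    intro n R v
    by_cases hn : n = 1
    · subst hn
      have hv : v = ![v 0] := by
        ext i
        fin_cases i
        rfl
      have hv' : (e ∘ v) = ![e (v 0)] := by
        ext i
        fin_cases i
        rfl
      have h1 := he (v 0)
      have h2 : R ∈ col L (e (v 0)) ↔ R ∈ col L (v 0) := by
        rw [h1]
      change Structure.RelMap R (e ∘ v) ↔ Structure.RelMap R v
      rw [hv', hv]
      exact h2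
    · exact (hR n hn).elim R

theorem col_equiv {M M' : Type u} [L.Structure M] [L.Structure M'] (e : M ≃[L] M') (x : M) :
    col L (e x) = col L x := by
  ext R
  change Structure.RelMap R ![e x] ↔ Structure.RelMap R ![x]
  have : ![e x] = e ∘ ![x] := by
    ext i
    fin_cases i
    rfl
  rw [this, e.map_rel]

end colours

section fibres

theorem exists_equiv_of_fibres {X Y : Type u} {Γ : Type*} (cX : X → Γ) (cY : Y → Γ)
    (h : ∀ γ, Cardinal.mk {x // cX x = γ} = Cardinal.mk {y // cY y = γ}) :
    ∃ e : X ≃ Y, ∀ x, cY (e x) = cX x := by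
  have h' : ∀ γ, Nonempty ({x // cX x = γ} ≃ {y // cY y = γ}) := fun γ => Cardinal.eq.1 (h γ)
  choose eγ _ using fun γ => (⟨Classical.choice (h' γ), trivial⟩ :
    ∃ _ : {x // cX x = γ} ≃ {y // cY y = γ}, True)
  refine ⟨(Equiv.sigmaFiberEquiv cX).symm.trans
    ((Equiv.sigmaCongrRight eγ).trans (Equiv.sigmaFiberEquiv cY)), ?_⟩
  intro x
  exact (eγ (cX x) ⟨x, rfl⟩).2

end fibres

section counting

variable {N : Type u} [L.Structure N]

/-- The number of elements of `A` of colour `t`. -/
def cnt (L : FirstOrder.Language.{v, w}) {N : Type u} [L.Structure N] (A : Set N)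
    (t : Set (L.Relations 1)) : Cardinal.{u} :=
  Cardinal.mk {x : N | x ∈ A ∧ col L x = t}

theorem cnt_mono {A B : Set N} (h : A ⊆ B) (t : Set (L.Relations 1)) :
    cnt L A t ≤ cnt L B t :=
  Cardinal.mk_le_mk_of_subset fun _ hx => ⟨h hx.1, hx.2⟩

theorem cnt_le_card (A : Set N) (t : Set (L.Relations 1)) : cnt L A t ≤ Cardinal.mk A :=
  Cardinal.mk_le_mk_of_subset fun _ hx => hx.1

theorem cnt_union {A B : Set N} (h : Disjoint A B) (t : Set (L.Relations 1)) :
    cnt L (A ∪ B) t = cnt L A t + cnt L B t := by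
  unfold cnt
  have h1 : {x : N | x ∈ A ∪ B ∧ col L x = t}
      = {x : N | x ∈ A ∧ col L x = t} ∪ {x : N | x ∈ B ∧ col L x = t} := by
    ext x
    simp only [Set.mem_union, Set.mem_ofPred_eq]
    tauto
  rw [h1]
  apply Cardinal.mk_union_of_disjoint
  rw [Set.disjoint_left]
  intro x hx hx'
  exact (Set.disjoint_left.1 h) hx.1 hx'.1

theorem cnt_add_diff {A B : Set N} (h : A ⊆ B) (t : Set (L.Relations 1)) :
    cnt L A t + cnt L (B \ A) t = cnt L B t := by
  rw [← cnt_union Set.disjoint_sdiff_right, Set.union_sdiff_cancel h]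

theorem cnt_eq_zero {A : Set N} {t : Set (L.Relations 1)} (h : ∀ x ∈ A, col L x ≠ t) :
    cnt L A t = 0 := by
  unfold cnt
  rw [Cardinal.mk_eq_zero_iff]
  exact ⟨fun x => h x.1 x.2.1 x.2.2⟩

theorem cnt_eq_card {A : Set N} {t : Set (L.Relations 1)} (h : ∀ x ∈ A, col L x = t) :
    cnt L A t = Cardinal.mk A := by
  unfold cnt
  congr 1
  have : {x : N | x ∈ A ∧ col L x = t} = A := by
    ext x
    exact ⟨fun hx => hx.1, fun hx => ⟨hx, h x hx⟩⟩
  rw [this]

theorem cnt_univ_usub [L.IsRelational] (B : Set N) (t : Set (L.Relations 1)) :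
    cnt L (Set.univ : Set (usub B : L.Substructure N)) t = cnt L B t := by
  unfold cnt
  refine Cardinal.mk_congr ?_
  refine
    { toFun := fun x => ⟨(x.1 : N), x.1.2, by rw [← col_coe]; exact x.2.2⟩
      invFun := fun y => ⟨⟨y.1, y.2.1⟩, Set.mem_univ _, by rw [col_coe]; exact y.2.2⟩
      left_inv := fun x => rfl
      right_inv := fun y => rfl }

open Classical in
theorem card_fibre_pair {A B : Set N} (hAB : A ⊆ B) (t : Set (L.Relations 1)) (b : Bool) :
    Cardinal.mk {x : B // (col L (x : N), decide ((x : N) ∈ A)) = (t, b)}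
      = if b then cnt L A t else cnt L (B \ A) t := by
  have h1 := Cardinal.mk_congr (Equiv.subtypeSubtypeEquivSubtypeInter (fun y : N => y ∈ B)
    (fun y : N => (col L y, decide (y ∈ A)) = (t, b)))
  rw [h1]
  unfold cnt
  cases b
  · simp only [Bool.false_eq_true, if_false]
    refine Cardinal.mk_congr (Equiv.subtypeEquivRight ?_)
    intro y
    simp only [Prod.mk.injEq, decide_eq_false_iff_not, Set.mem_sdiff, Set.mem_ofPred_eq]
    tauto
  · simp only [if_true]
    refine Cardinal.mk_congr (Equiv.subtypeEquivRight ?_)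
    intro y
    simp only [Prod.mk.injEq, decide_eq_true_eq, Set.mem_ofPred_eq]
    constructor
    · rintro ⟨_, h2, h3⟩
      exact ⟨h3, h2⟩
    · rintro ⟨h2, h3⟩
      exact ⟨hAB h2, h3, h2⟩

end counting

section pairs

variable [L.IsRelational]

open Classical in
theorem AEC.rel_of_cnt_eq (K : AEC.{u} L) (hR : ∀ n, n ≠ 1 → IsEmpty (L.Relations n))
    {N N' : Type u} [L.Structure N] [L.Structure N'] {A B : Set N} {A' B' : Set N'}
    (hAB : A ⊆ B) (hA'B' : A' ⊆ B') (h1 : ∀ t, cnt L A t = cnt L A' t)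
    (h2 : ∀ t, cnt L (B \ A) t = cnt L (B' \ A') t)
    (h : K.Rel (usub A) (usub B)) : K.Rel (usub A') (usub B') := by
  obtain ⟨e, he⟩ := exists_equiv_of_fibres
    (fun x : B => (col L (x : N), decide ((x : N) ∈ A)))
    (fun x : B' => (col L (x : N'), decide ((x : N') ∈ A'))) (by
      rintro ⟨t, b⟩
      rw [card_fibre_pair hAB, card_fibre_pair hA'B']
      cases b
      · simp only [Bool.false_eq_true, if_false]; exact h2 t
      · simp only [if_true]; exact h1 t)
  have he1 : ∀ x : B, col L ((e x : B') : N') = col L (x : N) := fun x =>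
    (Prod.mk.inj (he x)).1
  have he2 : ∀ x : B, ((e x : B') : N') ∈ A' ↔ (x : N) ∈ A := fun x => by
    have := (Prod.mk.inj (he x)).2
    exact decide_eq_decide.1 this
  let e' : (usub B : L.Substructure N) ≃[L] (usub B' : L.Substructure N') :=
    equivOfCol hR e (fun x => by
      rw [col_coe, col_coe]
      exact he1 x)
  exact AEC.Rel.of_equiv h hA'B' e' (fun x => (he2 x).symm)

theorem nonempty_equiv_of_cnt (hR : ∀ n, n ≠ 1 → IsEmpty (L.Relations n))
    {M M' : Type u} [L.Structure M] [L.Structure M']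
    (h : ∀ t, cnt L (Set.univ : Set M) t = cnt L (Set.univ : Set M') t) :
    Nonempty (M ≃[L] M') := by
  obtain ⟨e, he⟩ := exists_equiv_of_fibres (fun x : M => col L x) (fun x : M' => col L x) (by
    intro t
    have := h t
    unfold cnt at this
    simp only [Set.mem_univ, true_and] at this
    exact this)
  exact ⟨equivOfCol hR e he⟩

theorem cnt_univ_of_equiv {M M' : Type u} [L.Structure M] [L.Structure M'] (e : M ≃[L] M')
    (t : Set (L.Relations 1)) :
    cnt L (Set.univ : Set M) t = cnt L (Set.univ : Set M') t := by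
  unfold cnt
  refine Cardinal.mk_congr ?_
  refine
    { toFun := fun x => ⟨e x.1, Set.mem_univ _, by rw [col_equiv]; exact x.2.2⟩
      invFun := fun y => ⟨e.symm y.1, Set.mem_univ _, by
        have := col_equiv e (e.symm y.1)
        rw [e.apply_symm_apply] at this
        rw [← this]; exact y.2.2⟩
      left_inv := fun x => by simp
      right_inv := fun y => by simp }

end pairs

section extension

variable [L.IsRelational] (K : AEC.{u} L) (hR : ∀ n, n ≠ 1 → IsEmpty (L.Relations n))
  {N : Type u} [L.Structure N]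

include hR

theorem AEC.rel_extend_small (t : Set (L.Relations 1)) {A B : Set N} (hAB : A ⊆ B)
    (hcol : ∀ x ∈ B \ A, col L x = t) (hb : Cardinal.mk (B \ A : Set N) ≤ cnt L A t)
    (hl : K.LS < cnt L A t) {S : Set N} (hS : K.Rel (usub S) (usub A))
    (hcard : Cardinal.mk S < cnt L A t) : K.Rel (usub S) (usub B) := by
  have hSA : S ⊆ A := hS.1
  have hinf : ℵ₀ ≤ cnt L A t := _root_.le_trans K.aleph0_le_LS hl.le
  refine K.rel_of_cnt_eq hR hSA (hSA.trans hAB) (fun _ => rfl) ?_ hS
  intro t'
  have hBS : B \ S = (A \ S) ∪ (B \ A) := by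
    ext x
    simp only [Set.mem_sdiff, Set.mem_union]
    constructor
    · rintro ⟨hx1, hx2⟩
      by_cases hxA : x ∈ A
      · exact Or.inl ⟨hxA, hx2⟩
      · exact Or.inr ⟨hx1, hxA⟩
    · rintro (⟨hx1, hx2⟩ | ⟨hx1, hx2⟩)
      · exact ⟨hAB hx1, hx2⟩
      · exact ⟨hx1, fun hxS => hx2 (hSA hxS)⟩
  have hdisj : Disjoint (A \ S) (B \ A) := by
    rw [Set.disjoint_left]
    rintro x ⟨hx1, _⟩ ⟨_, hx2⟩
    exact hx2 hx1
  rw [hBS, cnt_union hdisj]
  by_cases ht : t' = t
  · subst ht
    have h1 : cnt L (A \ S) t' = cnt L A t' := by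
      refine Cardinal.eq_of_add_eq_of_aleph0_le (cnt_add_diff hSA t') ?_ hinf
      exact lt_of_le_of_lt (cnt_le_card S t') hcard
    rw [h1, cnt_eq_card hcol, Cardinal.add_eq_left hinf hb]
  · have h0 : cnt L (B \ A) t' = 0 := cnt_eq_zero fun x hx hx' => ht (hx'.symm.trans (hcol x hx))
    rw [h0, add_zero]

theorem AEC.rel_extend_all (t : Set (L.Relations 1)) {A B : Set N} (hAB : A ⊆ B)
    (hcol : ∀ x ∈ B \ A, col L x = t) (hb : Cardinal.mk (B \ A : Set N) ≤ cnt L A t)
    (hl : K.LS < cnt L A t) :
    ∀ (c : Cardinal.{u}) (S : Set N), Cardinal.mk S = c → K.Rel (usub S) (usub A) →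
      K.Rel (usub S) (usub B) := by
  intro c
  refine Cardinal.lt_wf.induction (C := fun c => ∀ S : Set N, Cardinal.mk S = c →
    K.Rel (usub S) (usub A) → K.Rel (usub S) (usub B)) c ?_
  intro c IH S hSc hS
  rcases lt_or_ge c (cnt L A t) with hlt | hge
  · exact K.rel_extend_small hR t hAB hcol hb hl hS (hSc ▸ hlt)
  · have hl' : K.LS < Cardinal.mk (usub S : L.Substructure N) := by
      change K.LS < Cardinal.mk S
      rw [hSc]
      exact lt_of_lt_of_le hl hge
    obtain ⟨r, wo, F, hne, hmono, hrel, hcardF, hsup⟩ := K.exists_resolution hS.left_mem hl'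
    have h1 : ∀ i, K.Rel (F i) (usub B) := by
      intro i
      have h2 : K.Rel (usub (F i : Set N)) (usub A) := by
        rw [usub_coe]
        exact (hrel i).trans hS
      have h3 := IH (Cardinal.mk (F i : Set N)) (by rw [← hSc]; exact hcardF i) (F i : Set N) rfl h2
      rwa [usub_coe] at h3
    have h4 := K.rel_iSup_left r F (usub B) hmono h1
    rwa [hsup] at h4

theorem AEC.rel_extend_le (t : Set (L.Relations 1)) {A B : Set N} (hAB : A ⊆ B)
    (hcol : ∀ x ∈ B \ A, col L x = t) (hb : Cardinal.mk (B \ A : Set N) ≤ cnt L A t)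
    (hl : K.LS < cnt L A t) (hA : K.Rel (usub A) (usub A)) : K.Rel (usub A) (usub B) :=
  K.rel_extend_all hR t hAB hcol hb hl (Cardinal.mk A) A rfl hA

theorem AEC.rel_extend (t : Set (L.Relations 1)) :
    ∀ (b : Cardinal.{u}) (A B : Set N), A ⊆ B → (∀ x ∈ B \ A, col L x = t) →
      Cardinal.mk (B \ A : Set N) = b → K.LS < cnt L A t → K.Rel (usub A) (usub A) →
      K.Rel (usub A) (usub B) := by
  intro b
  refine Cardinal.lt_wf.induction (C := fun b => ∀ (A B : Set N), A ⊆ B →
    (∀ x ∈ B \ A, col L x = t) → Cardinal.mk (B \ A : Set N) = b → K.LS < cnt L A t →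
    K.Rel (usub A) (usub A) → K.Rel (usub A) (usub B)) b ?_
  intro b IH A B hAB hcol hbB hl hA
  rcases le_or_gt b (cnt L A t) with hle | hgt
  · exact K.rel_extend_le hR t hAB hcol (hbB ▸ hle) hl hA
  · have hinf : ℵ₀ ≤ Cardinal.mk (B \ A : Set N) := by
      rw [hbB]
      exact _root_.le_trans K.aleph0_le_LS (_root_.le_trans hl.le hgt.le)
    obtain ⟨r, wo, hr⟩ := Cardinal.exists_ord_eq (B \ A : Set N)
    let D : (B \ A : Set N) → Set N := fun i => Subtype.val '' {j : (B \ A : Set N) | r j i ∨ j = i}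
    have hDsub : ∀ i, D i ⊆ B \ A := by
      rintro i x ⟨j, -, rfl⟩
      exact j.2
    have hDcard : ∀ i, Cardinal.mk (D i) < b := by
      intro i
      refine lt_of_le_of_lt Cardinal.mk_image_le ?_
      rw [← hbB]
      exact card_below_lt r hr hinf i
    have hDmono : ∀ i j, r i j → D i ⊆ D j := by
      rintro i j hij x ⟨k, hk, rfl⟩
      refine ⟨k, ?_, rfl⟩
      rcases hk with hk | hk
      · exact Or.inl (_root_.trans hk hij)
      · exact Or.inl (hk ▸ hij)
    have hdiff : ∀ i, (A ∪ D i) \ A = D i := by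
      intro i
      ext x
      simp only [Set.mem_sdiff, Set.mem_union]
      constructor
      · rintro ⟨h1 | h1, h2⟩
        · exact absurd h1 h2
        · exact h1
      · intro h1
        exact ⟨Or.inr h1, (hDsub i h1).2⟩
    have h1 : ∀ i, K.Rel (usub A) (usub (A ∪ D i)) := by
      intro i
      refine IH (Cardinal.mk (D i)) (hDcard i) A (A ∪ D i) Set.subset_union_left ?_ ?_ hl hA
      · rw [hdiff]
        exact fun x hx => hcol x (hDsub i hx)
      · rw [hdiff]
    have h2 : ∀ i j, r i j → K.Rel (usub (A ∪ D i)) (usub (A ∪ D j)) := by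
      intro i j hij
      have hsub : (A ∪ D j) \ (A ∪ D i) ⊆ D j := by
        rintro x ⟨h3 | h3, h4⟩
        · exact absurd (Or.inl h3) h4
        · exact h3
      refine IH (Cardinal.mk ((A ∪ D j) \ (A ∪ D i) : Set N))
        (lt_of_le_of_lt (Cardinal.mk_le_mk_of_subset hsub) (hDcard j)) (A ∪ D i) (A ∪ D j)
        (Set.union_subset_union_right A (hDmono i j hij)) ?_ rfl ?_ (h1 i).right_mem
      · exact fun x hx => hcol x (hDsub j (hsub hx))
      · exact lt_of_lt_of_le hl (cnt_mono Set.subset_union_left t)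
    have hne : Nonempty (B \ A : Set N) := by
      rw [← Cardinal.mk_ne_zero_iff]
      intro h0
      rw [h0] at hinf
      exact absurd hinf (not_le.2 Cardinal.aleph0_pos)
    have h3 := K.rel_iSup r (fun i => usub (A ∪ D i)) (fun i => (h1 i).right_mem) h2
    have hsup : (⨆ i, (usub (A ∪ D i) : L.Substructure N)) = usub B := by
      ext x
      rw [Substructure.mem_iSup_of_directed
        (directed_of_wellOrder r _ (fun i j hij => (h2 i j hij).1))]
      constructor
      · rintro ⟨i, hx | hx⟩
        · exact hAB hx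
        · exact (hDsub i hx).1
      · intro hx
        by_cases hxA : x ∈ A
        · exact ⟨hne.some, Or.inl hxA⟩
        · exact ⟨⟨x, hx, hxA⟩, Or.inr ⟨⟨x, hx, hxA⟩, Or.inr rfl, rfl⟩⟩
    rw [hsup] at h3
    exact (h1 hne.some).trans (h3 hne.some)

end extension

end Vale.Agent.Lib.P307
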