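import Vale.Agent.Lib.P307.UnaryOps

set_option linter.unusedSectionVars false

namespace Vale.Agent.Lib.P307

open FirstOrder Cardinal FirstOrder.Language

universe u v w

variable {L : FirstOrder.Language.{v, w}}

theorem AEC.exists_symbol_embedding (K : AEC.{u} L) (lam : Cardinal.{u}) (hLS : K.LS ≤ lam) :
    Nonempty (L.Relations 1 ↪ Quotient.out lam) := by
  have h1 : Cardinal.lift.{u} L.card ≤ Cardinal.lift.{max v w} K.LS := K.LS_isLSBound.2.1
  have h2 : Nonempty (L.Symbols ↪ Quotient.out K.LS) := by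
    rw [← Cardinal.lift_mk_le', Cardinal.mk_out]
    exact h1
  have h3 : Nonempty (Quotient.out K.LS ↪ Quotient.out lam) := by
    rw [← Cardinal.le_def, Cardinal.mk_out, Cardinal.mk_out]
    exact hLS
  obtain ⟨f⟩ := h2
  obtain ⟨g⟩ := h3
  refine ⟨⟨fun R => g (f (Sum.inr ⟨1, R⟩)), ?_⟩⟩
  intro R R' h
  have := f.injective (g.injective h)
  simpa using this

theorem exists_subset_of_le_prof (M : Type u) [L.Structure M] (t : Set (L.Relations 1))
    (c : Cardinal.{u}) (h : c ≤ prof L M t) :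
    ∃ X : Set M, (∀ x ∈ X, col L x = t) ∧ Cardinal.mk X = c := by
  unfold prof cnt at h
  obtain ⟨X, hX, hXc⟩ := Cardinal.le_mk_iff_exists_subset.1 h
  exact ⟨X, fun x hx => (hX hx).2, hXc⟩

theorem prof_eq_card_of_rest_small {Λ : Type u} (ρ : L.Relations 1 ↪ Λ) (M : Type u)
    [L.Structure M] (t0 : Set (L.Relations 1)) (c θ : Cardinal.{u})
    (hM : Cardinal.mk M = θ) (hθ : 2 ^ Cardinal.mk Λ * c < θ) (hinf : ℵ₀ ≤ θ)
    (h : ∀ t, t ≠ t0 → prof L M t ≤ c) : prof L M t0 = θ := by
  have h1 := card_split M t0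
  have h2 := card_rest_le ρ M t0 c h
  rw [hM] at h1
  refine Cardinal.eq_of_add_eq_of_aleph0_le (a := Cardinal.mk {x : M | col L x ≠ t0}) ?_
    (lt_of_le_of_lt h2 hθ) hinf
  rw [add_comm]
  exact h1.symm

section main

variable [L.IsRelational] (K : AEC.{u} L) (hR : ∀ n, n ≠ 1 → IsEmpty (L.Relations n))
  (lam κ : Cardinal.{u}) (hLS : K.LS ≤ lam) (hκ : 2 ^ lam < κ)
  (Ms : Type u) [L.Structure Ms] (hMs : K.Mem Ms) (hMsc : Cardinal.mk Ms = κ)
  (huniq : ∀ (M : Type u) [L.Structure M], K.Mem M → Cardinal.mk M = κ →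
    ∀ t, prof L M t = prof L Ms t)

include hLS in
theorem AEC.two_pow_mul_LS_le : 2 ^ lam * K.LS ≤ 2 ^ lam := by
  have h1 : K.LS ≤ 2 ^ lam := _root_.le_trans hLS (Cardinal.cantor lam).le
  have h2 : ℵ₀ ≤ (2 : Cardinal.{u}) ^ lam := _root_.le_trans K.aleph0_le_LS h1
  calc 2 ^ lam * K.LS ≤ 2 ^ lam * 2 ^ lam := mul_le_mul' le_rfl h1
    _ = 2 ^ lam := Cardinal.mul_eq_self h2

include hLS in
theorem AEC.succ_LS_le_two_pow : Order.succ K.LS ≤ 2 ^ lam :=
  Order.succ_le_of_lt (lt_of_le_of_lt hLS (Cardinal.cantor lam))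

include hLS hκ hMsc in
theorem AEC.exists_free_colour : ∃ t0, K.LS < prof L Ms t0 := by
  obtain ⟨ρ⟩ := K.exists_symbol_embedding lam hLS
  refine exists_free ρ Ms K.LS ?_
  rw [Cardinal.mk_out, hMsc]
  exact lt_of_le_of_lt (K.two_pow_mul_LS_le lam hLS) hκ

include hR hLS hκ hMs hMsc huniq in
theorem AEC.free_colour_unique (t0 t1 : Set (L.Relations 1)) (h0 : K.LS < prof L Ms t0)
    (h1 : K.LS < prof L Ms t1) : t0 = t1 := by
  by_contra hne
  have hκinf : ℵ₀ ≤ κ :=
    _root_.le_trans K.aleph0_le_LS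
      (_root_.le_trans hLS (_root_.le_trans (Cardinal.cantor lam).le hκ.le))
  have hsucc : Order.succ K.LS < κ := lt_of_le_of_lt (K.succ_LS_le_two_pow lam hLS) hκ
  have hsinf : ℵ₀ ≤ Order.succ K.LS := _root_.le_trans K.aleph0_le_LS (Order.le_succ _)
  obtain ⟨X0, hX0col, hX0c⟩ := exists_subset_of_le_prof Ms t0 _ (Order.succ_le_of_lt h0)
  obtain ⟨X1, hX1col, hX1c⟩ := exists_subset_of_le_prof Ms t1 _ (Order.succ_le_of_lt h1)
  obtain ⟨S, hXS, hSc, hSm⟩ := K.exists_sub hMs (X0 ∪ X1)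
  have hSc' : Cardinal.mk S ≤ Order.succ K.LS := by
    refine _root_.le_trans hSc ?_
    have h2 : Cardinal.mk (X0 ∪ X1 : Set Ms) ≤ Order.succ K.LS := by
      refine _root_.le_trans (Cardinal.mk_union_le _ _) ?_
      rw [hX0c, hX1c, Cardinal.add_eq_self hsinf]
    calc Cardinal.mk (X0 ∪ X1 : Set Ms) + K.LS ≤ Order.succ K.LS + Order.succ K.LS :=
          add_le_add h2 (Order.le_succ _)
      _ = Order.succ K.LS := Cardinal.add_eq_self hsinf
  have hp0 : prof L S t0 = Order.succ K.LS := by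
    apply le_antisymm
    · exact _root_.le_trans (prof_le_card S t0) hSc'
    · rw [prof_sub, ← hX0c, ← cnt_eq_card hX0col]
      exact cnt_mono (Set.subset_union_left.trans hXS) t0
  have hp1 : prof L S t1 = Order.succ K.LS := by
    apply le_antisymm
    · exact _root_.le_trans (prof_le_card S t1) hSc'
    · rw [prof_sub, ← hX1c, ← cnt_eq_card hX1col]
      exact cnt_mono (Set.subset_union_right.trans hXS) t1
  have hScκ : Cardinal.mk S + κ = κ :=
    Cardinal.add_eq_right hκinf (_root_.le_trans hSc' hsucc.le)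
  obtain ⟨M1, inst1, hM1, hc1, -, hq1⟩ := K.exists_extension hR hSm t1
    (by rw [hp1]; exact Order.lt_succ _) κ
  obtain ⟨M0, inst0, hM0, hc0, hq0, -⟩ := K.exists_extension hR hSm t0
    (by rw [hp0]; exact Order.lt_succ _) κ
  have e1 : prof L Ms t0 = Order.succ K.LS := by
    rw [← huniq M1 hM1 (hc1.trans hScκ) t0, hq1 t0 hne, hp0]
  have e0 : prof L Ms t0 = κ := by
    rw [← huniq M0 hM0 (hc0.trans hScκ) t0, hq0, hp0]
    exact Cardinal.add_eq_right hκinf hsucc.le
  rw [e1] at e0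
  exact absurd e0 hsucc.ne

include hR hLS hκ hMs hMsc huniq in
theorem AEC.small_of_ne (t0 : Set (L.Relations 1)) (h0 : K.LS < prof L Ms t0) :
    ∀ s, s ≠ t0 → prof L Ms s ≤ K.LS := by
  intro s hs
  by_contra hcon
  exact hs (K.free_colour_unique hR lam κ hLS hκ Ms hMs hMsc huniq s t0 (not_le.1 hcon) h0)

include hR hLS hκ hMs hMsc huniq in
theorem AEC.prof_large (t0 : Set (L.Relations 1)) (h0 : K.LS < prof L Ms t0)
    (κ' : Cardinal.{u}) (hκ' : 2 ^ lam < κ') (M : Type u) [L.Structure M] (hM : K.Mem M)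
    (hMc : Cardinal.mk M = κ') :
    prof L M t0 = κ' ∧ ∀ s, s ≠ t0 → prof L M s = prof L Ms s := by
  obtain ⟨ρ⟩ := K.exists_symbol_embedding lam hLS
  have hLSκ : K.LS ≤ κ := _root_.le_trans hLS (_root_.le_trans (Cardinal.cantor lam).le hκ.le)
  have hκinf : ℵ₀ ≤ κ := _root_.le_trans K.aleph0_le_LS hLSκ
  have hκ'inf : ℵ₀ ≤ κ' :=
    _root_.le_trans K.aleph0_le_LS
      (_root_.le_trans hLS (_root_.le_trans (Cardinal.cantor lam).le hκ'.le))
  have hsmall := K.small_of_ne hR lam κ hLS hκ Ms hMs hMsc huniq t0 h0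
  have key : ∀ s, s ≠ t0 → prof L M s = prof L Ms s := by
    obtain ⟨t, ht⟩ : ∃ t, K.LS < prof L M t := by
      refine exists_free ρ M K.LS ?_
      rw [Cardinal.mk_out, hMc]
      exact lt_of_le_of_lt (K.two_pow_mul_LS_le lam hLS) hκ'
    rcases le_or_gt κ' κ with hle | hlt
    · obtain ⟨M', inst', hM', hc', hq', hr'⟩ := K.exists_extension hR hM t ht κ
      have hc'' : Cardinal.mk M' = κ := by
        rw [hc', hMc]
        exact Cardinal.add_eq_right hκinf hle
      have hu := huniq M' hM' hc''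
      have htt0 : t = t0 := by
        refine K.free_colour_unique hR lam κ hLS hκ Ms hMs hMsc huniq t t0 ?_ h0
        rw [← hu t, hq']
        exact lt_of_lt_of_le ht (self_le_add_right _ _)
      subst htt0
      intro s hs
      rw [← hu s, hr' s hs]
    · obtain ⟨X0, hX0c⟩ : ∃ X0 : Set M, Cardinal.mk X0 = κ :=
        Cardinal.le_mk_iff_exists_set.1 (hMc ▸ hlt.le)
      have hfree : ∀ t, K.LS < prof L M t → t = t0 := by
        intro t ht
        obtain ⟨X', hX'col, hX'c⟩ := exists_subset_of_le_prof M t _ (Order.succ_le_of_lt ht)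
        obtain ⟨S, hXS, hSc, hSm⟩ := K.exists_sub hM (X0 ∪ X')
        have hsucc : Order.succ K.LS ≤ κ :=
          _root_.le_trans (K.succ_LS_le_two_pow lam hLS) hκ.le
        have hScard : Cardinal.mk S = κ := by
          apply le_antisymm
          · refine _root_.le_trans hSc ?_
            have h2 : Cardinal.mk (X0 ∪ X' : Set M) ≤ κ := by
              refine _root_.le_trans (Cardinal.mk_union_le _ _) ?_
              rw [hX0c, hX'c]
              exact (Cardinal.add_eq_left hκinf hsucc).le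
            calc Cardinal.mk (X0 ∪ X' : Set M) + K.LS ≤ κ + κ := add_le_add h2 hLSκ
              _ = κ := Cardinal.add_eq_self hκinf
          · rw [← hX0c]
            exact Cardinal.mk_le_mk_of_subset (Set.subset_union_left.trans hXS)
        have hu := huniq S hSm hScard
        refine K.free_colour_unique hR lam κ hLS hκ Ms hMs hMsc huniq t t0 ?_ h0
        rw [← hu t, prof_sub]
        calc K.LS < Order.succ K.LS := Order.lt_succ _
          _ = Cardinal.mk X' := hX'c.symm
          _ = cnt L X' t := (cnt_eq_card hX'col).symm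
          _ ≤ cnt L (S : Set M) t := cnt_mono (Set.subset_union_right.trans hXS) t
      have hsmallM : ∀ s, s ≠ t0 → prof L M s ≤ K.LS := by
        intro s hs
        by_contra hcon
        exact hs (hfree s (not_le.1 hcon))
      have hZ : Cardinal.mk {x : M | col L x ≠ t0} ≤ κ := by
        refine _root_.le_trans (card_rest_le ρ M t0 K.LS hsmallM) ?_
        rw [Cardinal.mk_out]
        exact _root_.le_trans (K.two_pow_mul_LS_le lam hLS) hκ.le
      obtain ⟨S, hXS, hSc, hSm⟩ := K.exists_sub hM (X0 ∪ {x : M | col L x ≠ t0})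
      have hScard : Cardinal.mk S = κ := by
        apply le_antisymm
        · refine _root_.le_trans hSc ?_
          have h2 : Cardinal.mk (X0 ∪ {x : M | col L x ≠ t0} : Set M) ≤ κ := by
            refine _root_.le_trans (Cardinal.mk_union_le _ _) ?_
            rw [hX0c]
            calc κ + Cardinal.mk {x : M | col L x ≠ t0} ≤ κ + κ := add_le_add le_rfl hZ
              _ = κ := Cardinal.add_eq_self hκinf
          calc Cardinal.mk (X0 ∪ {x : M | col L x ≠ t0} : Set M) + K.LS ≤ κ + κ :=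
                add_le_add h2 hLSκ
            _ = κ := Cardinal.add_eq_self hκinf
        · rw [← hX0c]
          exact Cardinal.mk_le_mk_of_subset (Set.subset_union_left.trans hXS)
      have hu := huniq S hSm hScard
      intro s hs
      rw [← hu s, prof_sub]
      apply le_antisymm
      · unfold prof cnt
        refine Cardinal.mk_le_mk_of_subset ?_
        intro x hx
        refine ⟨hXS (Or.inr ?_), hx.2⟩
        change col L x ≠ t0
        rw [hx.2]
        exact hs
      · exact cnt_mono (Set.subset_univ _) s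
  refine ⟨?_, key⟩
  refine prof_eq_card_of_rest_small ρ M t0 K.LS κ' hMc ?_ hκ'inf ?_
  · rw [Cardinal.mk_out]
    exact lt_of_le_of_lt (K.two_pow_mul_LS_le lam hLS) hκ'
  · intro s hs
    rw [key s hs]
    exact hsmall s hs

include hR hLS hκ hMs hMsc in
theorem AEC.exists_model_large (κ' : Cardinal.{u}) (hκ' : 2 ^ lam < κ') :
    ∃ (M : Type u) (_ : L.Structure M), K.Mem M ∧ Cardinal.mk M = κ' := by
  have hLSκ' : K.LS ≤ κ' :=
    _root_.le_trans hLS (_root_.le_trans (Cardinal.cantor lam).le hκ'.le)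
  have hκ'inf : ℵ₀ ≤ κ' := _root_.le_trans K.aleph0_le_LS hLSκ'
  rcases le_or_gt κ κ' with hle | hlt
  · obtain ⟨t0, h0⟩ := K.exists_free_colour lam κ hLS hκ Ms hMsc
    obtain ⟨M', inst', hM', hc', -, -⟩ := K.exists_extension hR hMs t0 h0 κ'
    refine ⟨M', inst', hM', ?_⟩
    rw [hc', hMsc]
    exact Cardinal.add_eq_right hκ'inf hle
  · obtain ⟨X, hXc⟩ : ∃ X : Set Ms, Cardinal.mk X = κ' :=
      Cardinal.le_mk_iff_exists_set.1 (hMsc ▸ hlt.le)
    obtain ⟨S, hXS, hSc, hSm⟩ := K.exists_sub hMs X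
    refine ⟨S, inferInstance, hSm, le_antisymm ?_ ?_⟩
    · refine _root_.le_trans hSc ?_
      rw [hXc]
      exact (Cardinal.add_eq_left hκ'inf hLSκ').le
    · rw [← hXc]
      exact Cardinal.mk_le_mk_of_subset hXS

end main

/-- Eventual categoricity for abstract elementary classes in a vocabulary with only unary
relation symbols, with threshold `(2 ^ lam)⁺`. -/
theorem AEC.eventual_categoricity_unary [L.IsRelational] (K : AEC.{u} L)
    (hR : ∀ n, n ≠ 1 → IsEmpty (L.Relations n)) (lam κ κ' : Cardinal.{u}) (hLS : K.LS ≤ lam)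
    (hκ : 2 ^ lam < κ) (hκ' : 2 ^ lam < κ') (hcat : K.Categorical κ) : K.Categorical κ' := by
  obtain ⟨⟨Ms, instMs, hMs, hMsc⟩, hiso⟩ := hcat
  have huniq : ∀ (M : Type u) [L.Structure M], K.Mem M → Cardinal.mk M = κ →
      ∀ t, prof L M t = prof L Ms t := by
    intro M _ hM hMc t
    obtain ⟨e⟩ := hiso M Ms hM hMs hMc hMsc
    exact cnt_univ_of_equiv e t
  obtain ⟨t0, h0⟩ := K.exists_free_colour lam κ hLS hκ Ms hMsc
  refine ⟨K.exists_model_large hR lam κ hLS hκ Ms hMs hMsc κ' hκ', ?_⟩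
  intro M N _ _ hM hN hMc hNc
  obtain ⟨hM0, hM1⟩ := K.prof_large hR lam κ hLS hκ Ms hMs hMsc huniq t0 h0 κ' hκ' M hM hMc
  obtain ⟨hN0, hN1⟩ := K.prof_large hR lam κ hLS hκ Ms hMs hMsc huniq t0 h0 κ' hκ' N hN hNc
  refine nonempty_equiv_of_cnt hR ?_
  intro t
  by_cases ht : t = t0
  · subst ht
    exact hM0.trans hN0.symm
  · exact (hM1 t ht).trans (hN1 t ht).symm

end Vale.Agent.Lib.P307
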