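import Vale.Agent.Lib.P307.Unary

set_option linter.unusedSectionVars false

namespace Vale.Agent.Lib.P307

open FirstOrder Cardinal FirstOrder.Language

universe u v w

variable {L : FirstOrder.Language.{v, w}}

section profile

variable (L)

/-- The profile of a structure: the number of its elements of each colour. -/
def prof (M : Type u) [L.Structure M] (t : Set (L.Relations 1)) : Cardinal.{u} :=
  cnt L (Set.univ : Set M) t

variable {L}

theorem prof_le_card (M : Type u) [L.Structure M] (t : Set (L.Relations 1)) :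
    prof L M t ≤ Cardinal.mk M := by
  unfold prof
  refine _root_.le_trans (cnt_le_card _ t) ?_
  rw [Cardinal.mk_univ]

theorem prof_sub [L.IsRelational] {M : Type u} [L.Structure M] (S : L.Substructure M)
    (t : Set (L.Relations 1)) : prof L S t = cnt L (S : Set M) t := by
  have h := cnt_univ_usub (L := L) (S : Set M) t
  rw [usub_coe] at h
  exact h

theorem card_split (M : Type u) [L.Structure M] (t0 : Set (L.Relations 1)) :
    Cardinal.mk M = prof L M t0 + Cardinal.mk {x : M | col L x ≠ t0} := by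
  have h := Cardinal.mk_sum_compl {x : M | col L x = t0}
  have h1 : prof L M t0 = Cardinal.mk {x : M | col L x = t0} := by
    change Cardinal.mk {x : M | x ∈ Set.univ ∧ col L x = t0} = _
    simp only [Set.mem_univ, true_and]
  have h2 : ({x : M | col L x = t0}ᶜ : Set M) = {x : M | col L x ≠ t0} := rfl
  rw [h1, ← h2, h]

theorem card_le_of_cnt_le {Λ : Type u} (ρ : L.Relations 1 ↪ Λ) {M : Type u} [L.Structure M]
    (A : Set M) (c : Cardinal.{u}) (h : ∀ t, cnt L A t ≤ c) :
    Cardinal.mk A ≤ 2 ^ Cardinal.mk Λ * c := by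
  rw [← Cardinal.mk_set]
  refine Cardinal.mk_le_mk_mul_of_mk_preimage_le (fun x : A => ρ '' col L (x : M)) ?_
  intro b
  by_cases hb : ((fun x : A => ρ '' col L (x : M)) ⁻¹' {b}).Nonempty
  · obtain ⟨x0, hx0⟩ := hb
    refine _root_.le_trans ?_ (h (col L (x0 : M)))
    unfold cnt
    refine Cardinal.mk_le_of_injective (f := fun x => ⟨(x.1 : M), x.1.2, ?_⟩) ?_
    · have h1 : ρ '' col L (x.1 : M) = b := x.2
      have h2 : ρ '' col L (x0 : M) = b := hx0
      exact Set.image_injective.2 ρ.injective (h1.trans h2.symm)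
    · intro x y hxy
      simp only [Subtype.mk.injEq] at hxy
      exact Subtype.ext (Subtype.ext hxy)
  · rw [Set.not_nonempty_iff_eq_empty] at hb
    rw [hb]
    simp

theorem card_rest_le {Λ : Type u} (ρ : L.Relations 1 ↪ Λ) (M : Type u) [L.Structure M]
    (t0 : Set (L.Relations 1)) (c : Cardinal.{u}) (h : ∀ t, t ≠ t0 → prof L M t ≤ c) :
    Cardinal.mk {x : M | col L x ≠ t0} ≤ 2 ^ Cardinal.mk Λ * c := by
  refine card_le_of_cnt_le ρ _ c ?_
  intro t
  by_cases ht : t = t0
  · subst ht
    have h0 : cnt L {x : M | col L x ≠ t} t = 0 := cnt_eq_zero (fun x hx => hx)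
    rw [h0]
    exact zero_le
  · exact _root_.le_trans (cnt_mono (Set.subset_univ _) t) (h t ht)

theorem exists_free {Λ : Type u} (ρ : L.Relations 1 ↪ Λ) (M : Type u) [L.Structure M]
    (c : Cardinal.{u}) (h : 2 ^ Cardinal.mk Λ * c < Cardinal.mk M) :
    ∃ t, c < prof L M t := by
  by_contra hcon
  have hcon' : ∀ t, prof L M t ≤ c := fun t => not_lt.1 (fun h' => hcon ⟨t, h'⟩)
  have h1 := card_le_of_cnt_le ρ (Set.univ : Set M) c hcon'
  rw [Cardinal.mk_univ] at h1
  exact absurd h1 (not_le.2 h)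

end profile

section copies

/-- `I` copies of each element of `M`. -/
structure Copies (M : Type u) (I : Type u) : Type u where
  fst : M
  snd : I

variable [L.IsRelational]

instance copiesStructure (M I : Type u) [L.Structure M] : L.Structure (Copies M I) where
  funMap := fun f => isEmptyElim f
  RelMap := fun R v => Structure.RelMap R (fun k => (v k).fst)

theorem col_copies {M I : Type u} [L.Structure M] (p : Copies M I) :
    col L p = col L p.fst := by
  ext R
  change Structure.RelMap R (fun k => (![p] k).fst) ↔ Structure.RelMap R ![p.fst]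
  have : (fun k => (![p] k).fst) = ![p.fst] := by
    ext k
    fin_cases k
    rfl
  rw [this]

theorem exists_room {M I : Type u} (x0 : M) (A : Set (Copies M I))
    (hA : Cardinal.mk A < Cardinal.mk I) (hI : ℵ₀ ≤ Cardinal.mk I) (b : Cardinal.{u})
    (hb : b ≤ Cardinal.mk I) :
    ∃ E : Set (Copies M I), Disjoint A E ∧ (∀ p ∈ E, p.fst = x0) ∧ Cardinal.mk E = b := by
  let f : I → Copies M I := fun i => ⟨x0, i⟩
  have hf : Function.Injective f := by
    intro i j hij
    exact congrArg Copies.snd hij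
  have h1 : Cardinal.mk (f ⁻¹' A) < Cardinal.mk I :=
    lt_of_le_of_lt (Cardinal.mk_preimage_of_injective f A hf) hA
  have : Infinite I := Cardinal.infinite_iff.2 hI
  have h2 : Cardinal.mk ((f ⁻¹' A)ᶜ : Set I) = Cardinal.mk I :=
    Cardinal.mk_compl_of_infinite _ h1
  obtain ⟨J, hJ1, hJ2⟩ : ∃ J ⊆ ((f ⁻¹' A)ᶜ : Set I), Cardinal.mk J = b :=
    Cardinal.le_mk_iff_exists_subset.1 (h2 ▸ hb)
  refine ⟨f '' J, ?_, ?_, ?_⟩
  · rw [Set.disjoint_left]
    rintro p hpA ⟨i, hi, rfl⟩
    exact hJ1 hi hpA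
  · rintro p ⟨i, -, rfl⟩
    rfl
  · rw [Cardinal.mk_image_eq hf, hJ2]

theorem AEC.exists_extension (K : AEC.{u} L) (hR : ∀ n, n ≠ 1 → IsEmpty (L.Relations n))
    {M : Type u} [L.Structure M] (hM : K.Mem M) (t : Set (L.Relations 1))
    (ht : K.LS < prof L M t) (b : Cardinal.{u}) :
    ∃ (M' : Type u) (_ : L.Structure M'), K.Mem M' ∧ Cardinal.mk M' = Cardinal.mk M + b ∧
      prof L M' t = prof L M t + b ∧ ∀ t', t' ≠ t → prof L M' t' = prof L M t' := by
  set Θ : Cardinal.{u} := Order.succ (max (max (Cardinal.mk M) b) ℵ₀) with hΘ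
  let I : Type u := Quotient.out Θ
  have hI : Cardinal.mk I = Θ := Cardinal.mk_out Θ
  have hlt : max (max (Cardinal.mk M) b) ℵ₀ < Cardinal.mk I := by
    rw [hI]
    exact Order.lt_succ _
  have hIinf : ℵ₀ ≤ Cardinal.mk I := _root_.le_trans (le_max_right _ _) hlt.le
  have hMI : Cardinal.mk M < Cardinal.mk I :=
    lt_of_le_of_lt (_root_.le_trans (le_max_left _ _) (le_max_left _ _)) hlt
  have hbI : b ≤ Cardinal.mk I :=
    _root_.le_trans (_root_.le_trans (le_max_right _ _) (le_max_left _ _)) hlt.le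
  have hIne : Nonempty I := by
    rw [← Cardinal.mk_ne_zero_iff]
    intro h0
    rw [h0] at hIinf
    exact absurd hIinf (not_le.2 Cardinal.aleph0_pos)
  obtain ⟨i0⟩ := hIne
  obtain ⟨x0, hx0⟩ : ∃ x0 : M, col L x0 = t := by
    have hpos : prof L M t ≠ 0 := by
      intro h0
      rw [h0] at ht
      exact absurd ht (not_lt.2 zero_le)
    unfold prof cnt at hpos
    rw [Cardinal.mk_ne_zero_iff] at hpos
    obtain ⟨x, hx⟩ := hpos
    exact ⟨x, hx.2⟩
  let A0 : Set (Copies M I) := {p | p.snd = i0}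
  let e0 : M ≃ A0 :=
    { toFun := fun x => ⟨⟨x, i0⟩, rfl⟩
      invFun := fun p => p.1.fst
      left_inv := fun x => rfl
      right_inv := fun p => by
        obtain ⟨⟨x, i⟩, hp⟩ := p
        have hi : i = i0 := hp
        subst hi
        rfl }
  let e0' : M ≃[L] (usub A0 : L.Substructure (Copies M I)) :=
    equivOfCol hR e0 (fun x => by
      rw [col_coe]
      exact col_copies _)
  have hA0 : K.Rel (usub A0) (usub A0) :=
    (K.rel_self_iff _).2 (K.le_of_equiv e0' ⊤ ⊤ (by simp) hM)
  have hcnt0 : ∀ t', cnt L A0 t' = prof L M t' := by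
    intro t'
    rw [← cnt_univ_usub]
    exact (cnt_univ_of_equiv e0' t').symm
  have hcardA0 : Cardinal.mk A0 = Cardinal.mk M := (Cardinal.mk_congr e0).symm
  obtain ⟨E, hdisj, hE1, hE2⟩ := exists_room x0 A0 (hcardA0 ▸ hMI) hIinf b hbI
  have hEcol : ∀ p ∈ E, col L p = t := by
    intro p hp
    rw [col_copies, hE1 p hp, hx0]
  have hdiff : (A0 ∪ E) \ A0 = E := by
    ext p
    simp only [Set.mem_sdiff, Set.mem_union]
    constructor
    · rintro ⟨h1 | h1, h2⟩
      · exact absurd h1 h2
      · exact h1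
    · intro h1
      exact ⟨Or.inr h1, fun h2 => (Set.disjoint_left.1 hdisj) h2 h1⟩
  have hrel := K.rel_extend hR t b A0 (A0 ∪ E) Set.subset_union_left
    (by rw [hdiff]; exact hEcol) (by rw [hdiff]; exact hE2) (by rw [hcnt0]; exact ht) hA0
  refine ⟨(usub (A0 ∪ E) : L.Substructure (Copies M I)), inferInstance,
    (K.rel_self_iff _).1 hrel.right_mem, ?_, ?_, ?_⟩
  · change Cardinal.mk (A0 ∪ E : Set (Copies M I)) = _
    rw [Cardinal.mk_union_of_disjoint hdisj, hcardA0, hE2]
  · change cnt L (Set.univ : Set (usub (A0 ∪ E) : L.Substructure (Copies M I))) t = _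
    rw [cnt_univ_usub, cnt_union hdisj, hcnt0, cnt_eq_card hEcol, hE2]
  · intro t' ht'
    change cnt L (Set.univ : Set (usub (A0 ∪ E) : L.Substructure (Copies M I))) t' = _
    have h0 : cnt L E t' = 0 := cnt_eq_zero fun p hp h => ht' (h.symm.trans (hEcol p hp))
    rw [cnt_univ_usub, cnt_union hdisj, hcnt0, h0, add_zero]

theorem AEC.exists_sub (K : AEC.{u} L) {M : Type u} [L.Structure M] (hM : K.Mem M)
    (X : Set M) : ∃ S : L.Substructure M, X ⊆ S ∧ Cardinal.mk S ≤ Cardinal.mk X + K.LS ∧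
      K.Mem S := by
  obtain ⟨S, hS, hX, hc⟩ := K.exists_le_of_subset hM X
  exact ⟨S, hX, hc, (K.le_mem hS).2⟩

end copies

end Vale.Agent.Lib.P307
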